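import Crest.Agent.X212.An.Loc
import Crest.Agent.X212.Cht98.Nk

/-! X212/Ink3/Main (helper3): INS-NECK, the necks of a job and the default cross-sections. -/

set_option autoImplicit false
set_option linter.unusedSectionVars false
noncomputable section
open scoped Manifold ContDiff Topology InnerProductSpace
open MeasureTheory Set Function Filter

namespace Crest.Agent.X212.Ink3
open An M Nd18 Wrd81 Cht98 Dgr80

/-! ### perturbations -/

section pt
variable {M ι lam : Type} [Fintype ι] [Fintype lam] {r n : ℕ}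

/-- the zero perturbation -/
def pz : Pt M ι lam r n := ⟨fun _ _ => 0, fun _ _ => 0, fun _ _ => 0⟩

theorem pt_ext {τ τ' : Pt M ι lam r n} (hD : ∀ c x, τ.D c x = τ'.D c x)
    (hC : ∀ c x, τ.C c x = τ'.C c x) (hS : ∀ c i, τ.S c i = τ'.S c i) : τ = τ' := by
  cases τ; cases τ'
  congr
  exacts [funext fun c => funext (hD c), funext fun c => funext (hC c),
    funext fun c => funext (hS c)]

theorem add_pz (τ : Pt M ι lam r n) : τ.add pz = τ :=
  pt_ext (fun _ _ => add_zero _) (fun _ _ => add_zero _) fun _ _ => add_zero _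

theorem pz_add (τ : Pt M ι lam r n) : pz.add τ = τ :=
  pt_ext (fun _ _ => zero_add _) (fun _ _ => zero_add _) fun _ _ => zero_add _

theorem fsum_zero {W : Type} (τ : W → Pt M ι lam r n) : fsum τ 0 = pz :=
  pt_ext (fun _ _ => by simp [fsum, pz]) (fun _ _ => by simp [fsum, pz]) fun _ _ => by
    simp [fsum, pz]

/-- terms that are zero can be dropped -/
theorem dsum_res {K : Type} [Fintype K] {p : K → Prop} (τ : ∀ i, p i → Pt M ι lam r n)
    (p' : K → Prop) (h : ∀ i k, ¬p' i → τ i k = pz) :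
    Pt.dsum p τ = Pt.dsum (fun i => p i ∧ p' i) fun i k => τ i k.1 := by
  refine pt_ext (fun c x => ?_) (fun c x => ?_) fun c j => ?_ <;>
    refine Finset.sum_congr rfl fun i _ => ?_ <;> by_cases k : p i <;> by_cases k' : p' i <;>
    simp only [k, k', dite_true, dite_false, and_self, and_false, false_and] <;>
    rw [h i k k'] <;> rfl

theorem dsum_pz {K : Type} [Fintype K] {p : K → Prop} {τ : ∀ i, p i → Pt M ι lam r n}
    (h : ∀ i k, τ i k = pz) : Pt.dsum p τ = pz := by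
  refine pt_ext (fun c x => ?_) (fun c x => ?_) fun c j => ?_ <;>
    refine Finset.sum_eq_zero fun i _ => ?_ <;> by_cases k : p i <;>
    simp only [k, dite_true, dite_false] <;> rw [h i k] <;> rfl

end pt

/-! ### cross-sections without gradient term -/

section nil
variable {E3 : Type} [NormedAddCommGroup E3] [NormedSpace ℝ E3] [FiniteDimensional ℝ E3]
  [MeasurableSpace E3] [BorelSpace E3]
  {H3 : Type} [TopologicalSpace H3] {I3 : ModelWithCorners ℝ E3 H3} [I3.Boundaryless]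
  {Y : Type} [TopologicalSpace Y] [ChartedSpace H3 Y] [IsManifold I3 ∞ Y] [T2Space Y]
  [MeasurableSpace Y] [BorelSpace Y] [SecondCountableTopology Y] [CompactSpace Y]
  {κ : Type} [Fintype κ] {lam : Type} [Fintype lam]
  {E : Type} [NormedAddCommGroup E] [NormedSpace ℝ E] [FiniteDimensional ℝ E]
  [MeasurableSpace E] [BorelSpace E]
  {HM : Type} [TopologicalSpace HM] {I : ModelWithCorners ℝ E HM}
  {M : Type} [TopologicalSpace M] [ChartedSpace HM M] [IsManifold I ∞ M] [MeasurableSpace M]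
  [T2Space M] [BorelSpace M] {r n : ℕ}

/-- no densities and no function -/
structure Nil (N : ND Y lam) : Prop where
  J0 : IsEmpty N.J0
  J2 : IsEmpty N.J2
  φ : N.φ = 0

variable (I3 Y) in
theorem exists_emb : ∃ e : Σ n, Y → EuclideanSpace ℝ (Fin n), ContMDiff I3 (𝓡 e.1) ∞ e.2 ∧
    ∀ x, Injective (mfderiv I3 (𝓡 e.1) e.2 x) :=
  let ⟨n, e, h1, _, h2⟩ := exists_embedding_euclidean_of_compact (I := I3) (M := Y)
  ⟨⟨n, e⟩, h1, h2⟩

variable (I3 Y lam) in
/-- the zero data -/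
def nd0 : ND Y lam where
  J0 := Empty
  J2 := Empty
  d0 := Empty.elim
  d2 := Empty.elim
  φ := 0
  δ := 1 / 8
  ny := (exists_emb I3 Y).choose.1
  y i x := (exists_emb I3 Y).choose.2 x i

theorem nd0_nil : Nil (nd0 I3 Y lam) :=
  ⟨inferInstanceAs (IsEmpty Empty), inferInstanceAs (IsEmpty Empty), rfl⟩

theorem nd0_ok (D : YD I3 Y κ lam) : (nd0 I3 Y lam).OK D := by
  obtain ⟨h1, h2⟩ := (exists_emb I3 Y).choose_spec
  refine ⟨fun j => j.elim, fun j => j.elim, contDiff_const, fun _ _ _ => rfl,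
    show (0 : ℝ) < 1 / 8 by norm_num, le_rfl,
    fun i => (EuclideanSpace.proj i : _ →L[ℝ] ℝ).contMDiff.comp h1, fun y ξ h => h2 y ?_⟩
  have : ∑ a, ξ a • D.F.D a (exists_emb I3 Y).choose.2 y = 0 := PiLp.ext fun i => by
    rw [PiLp.zero_apply, ← h i, WithLp.ofLp_sum, Finset.sum_apply]
    exact Finset.sum_congr rfl fun a _ => congrArg (ξ a * ·)
      (Sob92.dv_clm (EuclideanSpace.proj i : _ →L[ℝ] ℝ) (h1.mdifferentiableAt (by simp))).symm
  rw [map_zero, map_sum]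
  simp only [map_smul]
  exact this

namespace Nil
variable {N : ND Y lam} (h : Nil N) {D : YD I3 Y κ lam} {B : Base M (Option κ) lam}
  {G : Geo I M (Option κ) lam}
include h

theorem smul (ν : ℝ) : Nil (N.smul ν) :=
  ⟨h.J0, h.J2, funext fun x => (congrArg (ν * ·) (congrFun h.φ x)).trans (mul_zero ν)⟩

/-- no gradient term -/
theorem q1 (K : Nk D B G) : (N.q1 K : Pt _ _ _ r n) = pz := by
  have := h.J0
  have := h.J2
  exact pt_ext (fun c x => by simp [ND.q1, DG.q1, DG.gP, pz])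
    (fun c x => by simp [ND.q1, DG.q1, DG.gA, pz, ← Pi.zero_def]) fun _ _ => rfl

theorem pt (K : Nk D B G) : (N.pt K 0 : Pt _ _ _ r n) = pz := by
  rw [ND.pt, h.q1, fsum_zero, add_pz]

theorem crit {β : YC Y κ lam} :
    N.Crit D β ↔ (cy β).Sol D.B D.G (pz : Pt _ _ _ 0 0) ∧ ∀ y, β.W none y = 0 :=
  ⟨fun k => ⟨h.q1 D.nk ▸ k.sol, k.tmp⟩, fun k => ⟨(h.q1 D.nk).symm ▸ k.1, k.2⟩⟩

theorem traj {c : Cfg (Y × ℝ) (Option κ) lam 0} {β β' : YC Y κ lam} {ζ ζ' : Circle} :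
    N.Traj D 0 c β β' ζ ζ' ↔ c.Sol D.B D.G (pz : Pt _ _ _ 0 0) ∧ D.nk.Lim c β ζ atBot ∧
      D.nk.Lim c β' ζ' atTop :=
  ⟨fun k => ⟨h.pt D.nk ▸ k.sol, k.bot, k.top⟩, fun k => ⟨(h.pt D.nk).symm ▸ k.1, k.2.1, k.2.2⟩⟩

theorem lv (β : YC Y κ lam) : N.lv D β = (∫ y, ⟪-β.m.ρ none y (Wz78.dir (Cyf70.IC I3) D.Z.e
    (cy β).m.ρ (cy β).W (cy β).Φ (y, 0)), β.Φ y⟫_ℝ ∂D.F.μ) / 2 := by
  rw [ND.lv, h.φ, Pi.zero_apply, add_zero]

end Nil

end nil

/-! ### necks -/

variable {Wi : Type} {X : Mf 4} {A κ lam : Type} [Fintype A] [Fintype κ] [Fintype lam]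
  [DecidableEq lam] {M : Mark X A κ} {W : World M} {N : ML M lam}

section nk
variable {m c : M.Cl} {a : A} {b : Option Bool} {p : Prm A}

theorem act_ok (h : Act m c a b p) : NkOK M m c p a := by
  cases b
  exacts [.of_fr h.1 h.2.2.2.2.1 h.2.2.2.1 h.2.2.1 h.2.1.1 h.2.2.2.2.2,
    .of_mem h.1 h.2.2.2 h.2.2.1]

theorem act_tv (h : Act m c a b p) : Mark.tv c.1 p.2 a = p.2 a := by
  cases b
  exacts [Mark.tv_fr h.2.2.2.2.1 _, (Mark.tv_mem h.2.2.2 _).trans (h.2.1.2 h.2.2.2).symm]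

variable (Λ : Lns W N) {S : Xs Wi κ lam} (hS : S.C.OK)
  {g : S.Y.M ≃ₘ^∞⟮S.Y.I, (M.bn a).Y.I⟯ (M.bn a).Y.M} (hg : ¬M.pin a → Cy.Iso S.C (N.cy a) g)

/-- the neck of an active wall -/
def nk (h : Act m c a b p) : Nk S.D (Λ.B m c) (Λ.G m c p) :=
  (act_ok h).nk g Λ hS.vol (hg h.1) (b.getD false)

theorem isNk (h : Act m c a b p) : IsNk a b g (nk Λ hS hg h) := by
  have e := act_tv h
  have key : ∀ y s, s ∈ Hs (p.2 a) (b.getD false) →
      (nk Λ hS hg h).ψ (y, len (p.2 a) (b.getD false) s) = W.nj c a (g y, s) := fun y s hs => by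
    rw [nk, NkOK.nk_ψ, e, li_len hs]
  rcases b with _ | b
  · have k : p.2 a < 1 := h.2.2.1 a h.2.2.2.2.1
    exact ⟨rfl, (congrArg (nq · false) e).trans (nq_false k),
      fun y s h1 h2 => key y s ⟨⟨h1, h2⟩, .inl k⟩⟩
  · have k : Mark.tv c.1 p.2 a = 1 := Mark.tv_mem h.2.2.2 _
    cases b
    · exact ⟨rfl, (congrArg (nq · false) k).trans nq_one,
        fun y s h1 h2 => key y s ⟨⟨h1, lt_trans h2 one_pos⟩, .inr h2⟩⟩
    · exact ⟨(congrArg (np · true) k).trans np_one, rfl,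
        fun y s h1 h2 => key y s ⟨⟨lt_trans (by norm_num) h1, h2⟩, .inr h1⟩⟩

end nk

/-- cross-sections with their identifications; the fields `xs`, `iso` of `Job.OK` -/
structure XG (Wi : Type) (N : ML M lam) : Type 1 where
  xs : A → Xs Wi κ lam
  g : ∀ a, (xs a).Y.M ≃ₘ^∞⟮(xs a).Y.I, (M.bn a).Y.I⟯ (M.bn a).Y.M
  ok : ∀ a, (xs a).C.OK ∧ (xs a).N.OK (xs a).D
  iso : ∀ a, ¬M.pin a → Cy.Iso (xs a).C (N.cy a) (g a)

/-- the field `K` -/
def XG.K (S : XG Wi N) (Λ : Lns W N) (m c : M.Cl) (a : A) (b : Option Bool) (p : Prm A)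
    (h : Act m c a b p) : Nk (S.xs a).D (Λ.B m c) (Λ.G m c p) := nk Λ (S.ok a).1 (S.iso a) h

/-- the field `nk` of `Job.OK` -/
theorem XG.isNk (S : XG Wi N) (Λ : Lns W N) (m c : M.Cl) (a : A) (b : Option Bool) (p : Prm A)
    (h : Act m c a b p) : IsNk a b (S.g a) (S.K Λ m c a b p h) := Ink3.isNk Λ _ _ h

variable (Wi N) in
/-- the default cross-section -/
@[reducible] def xs0 (a : A) : Xs Wi κ lam :=
  ⟨(M.bn a).Y, N.cy a, nd0 (M.bn a).Y.I (M.bn a).Y.M _, 0⟩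

variable (Wi N) in
/-- **the default cross-sections** -/
@[reducible] def xg0 : XG Wi N :=
  ⟨xs0 Wi N, fun _ => .refl _ _ _, fun a => ⟨N.cy_ok a, nd0_ok _⟩, fun _ _ => cy_iso_refl _⟩

/-- one cross-section with its identification -/
structure XG1 (Wi : Type) (N : ML M lam) (a : A) : Type 1 where
  xs : Xs Wi κ lam
  g : xs.Y.M ≃ₘ^∞⟮xs.Y.I, (M.bn a).Y.I⟯ (M.bn a).Y.M
  ok : xs.C.OK ∧ xs.N.OK xs.D
  iso : ¬M.pin a → Cy.Iso xs.C (N.cy a) g

/-- the component -/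
@[reducible] def XG.at (S : XG Wi N) (a : A) : XG1 Wi N a := ⟨S.xs a, S.g a, S.ok a, S.iso a⟩

/-- a family from its components -/
@[reducible] def XG.of (T : ∀ a, XG1 Wi N a) : XG Wi N :=
  ⟨fun a => (T a).xs, fun a => (T a).g, fun a => (T a).ok, fun a => (T a).iso⟩

/-- the cross-section of the wall `a₀` is replaced -/
def XG.upd [DecidableEq A] (S : XG Wi N) (a₀ : A) (T : XG1 Wi N a₀) : XG Wi N :=
  .of (update S.at a₀ T)

theorem XG.upd_self [DecidableEq A] (S : XG Wi N) (a₀ : A) (T : XG1 Wi N a₀) :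
    (S.upd a₀ T).at a₀ = T := update_self a₀ T S.at

theorem XG.upd_ne [DecidableEq A] (S : XG Wi N) {a₀ a : A} (T : XG1 Wi N a₀) (h : a ≠ a₀) :
    (S.upd a₀ T).at a = S.at a := update_of_ne h T S.at

/-! ### the zero lemma -/

variable {Λ : Lns W N} {A' h : Type} [Fintype A'] [DecidableEq A'] [Fintype h] {r n : ℕ}
  (J : Job Wi Λ A' h r n) (c : M.Cl) (s : A' → ℝ)

/-- the term `w` without its neck part -/
abbrev τf (w : Wi) : Pt (W.Z c).M (Option κ) (lam ⊕ lam) r n :=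
  (tmP (J.B c) (J.G c s).F ((J.tp c).tm (J.tw w))).smul (J.co w s)

variable {J}

/-- only the walls in `V` carry gradient terms -/
theorem τ0_res {V : Set A} (h0 : ∀ a ∉ V, Nil (J.xs a).N) :
    J.τ0 c s = Pt.dsum (fun i => J.Ac c s i ∧ i.1 ∈ V) fun i hi =>
      ((J.xs i.1).N.smul (J.ν i.1 s)).q1 (J.K c i.1 i.2 _ hi.1) :=
  dsum_res _ _ fun i _ k => ((h0 i.1 k).smul _).q1 _

/-- only the walls in `V` carry neck words -/
theorem τw_res {V : Set A} {w : Wi} (h0 : ∀ a ∉ V, J.ν a s • (J.xs a).ty w = 0) :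
    J.τw c s w = (τf J c s w).add (Pt.dsum (fun i => J.Ac c s i ∧ i.1 ∈ V) fun i hi =>
      fsum (fun T => (J.xs i.1).N.q2 (J.K c i.1 i.2 _ hi.1) T.1) (J.ν i.1 s • (J.xs i.1).ty w)) :=
  congrArg _ (dsum_res _ _ fun i _ k => by rw [h0 i.1 k, fsum_zero])

theorem τ0_nil (h0 : ∀ a, Nil (J.xs a).N) : J.τ0 c s = pz :=
  dsum_pz fun i _ => ((h0 i.1).smul _).q1 _

theorem τw_nn {w : Wi} (h0 : J.Nn w s) : J.τw c s w = τf J c s w :=
  (congrArg _ (dsum_pz fun i _ => by rw [h0 i.1, fsum_zero])).trans (add_pz _)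

theorem nn_of {w : Wi} (h0 : ∀ a, (J.xs a).ty w = 0) : J.Nn w s := fun a => by
  rw [h0 a, smul_zero]

/-- **ZERO**: without neck data the perturbation consists of the field terms -/
theorem τ_nil (h0 : ∀ a, Nil (J.xs a).N) (h1 : ∀ a w, (J.xs a).ty w = 0) (q : Wi →₀ ℝ) :
    J.τ c q s = fsum (τf J c s) q := by
  rw [Job.τ, τ0_nil c s h0, pz_add]
  exact congrArg (fsum · q) (funext fun w => τw_nn c s (nn_of s (h1 · w)))

theorem q_nil {S : Xs Wi κ lam} (h1 : ∀ w, S.ty w = 0) (q : Wi →₀ ℝ) : S.q q = 0 :=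
  Finset.sum_eq_zero fun w _ => (congrArg (q w • ·) (h1 w)).trans (smul_zero _)

end Crest.Agent.X212.Ink3
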